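import Vale.Agent.P237.Equality.Limit

/-!
Equality in Petty's inequality characterises ellipsoids (coordinate space).
-/

open MeasureTheory Set Pointwise Filter Topology

namespace Vale.Agent.P237

noncomputable section

open Zonoid

/-- The Euclidean length in coordinates. -/
def len (u : V3) : ℝ := Real.sqrt (u ⬝ᵥ u)

lemma dot_self_eq (u : V3) : u ⬝ᵥ u = ∑ i, u i ^ 2 := by simp [dotProduct, sq]

lemma dot_self_nonneg' (u : V3) : 0 ≤ u ⬝ᵥ u := Finset.sum_nonneg fun i _ => mul_self_nonneg _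

lemma len_sq (u : V3) : len u * len u = u ⬝ᵥ u := Real.mul_self_sqrt (dot_self_nonneg' u)

lemma mem_ball3 {u : V3} : u ∈ ball3 ↔ u ⬝ᵥ u ≤ 1 := by rw [dot_self_eq]; rfl

lemma len_pos {u : V3} (hu : u ≠ 0) : 0 < len u :=
  Real.sqrt_pos.2 (lt_of_le_of_ne (dot_self_nonneg' u) (Ne.symm (mt dotProduct_self_eq_zero.1 hu)))

lemma vol_ball3 : volume.real ball3 = 4 * Real.pi / 3 := by
  rw [ball3_eq, measureReal_def, (PiLp.volume_preserving_toLp (Fin 3)).measure_preimage
    measurableSet_closedBall.nullMeasurableSet, ← measureReal_def, volume_ball_three zero_le_one]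
  ring

lemma shadow_ball3 : shadow ball3 = {y : Fin 2 → ℝ | ∑ i, y i ^ 2 ≤ 1 ^ 2} := by
  ext y
  constructor
  · rintro ⟨x, hx, rfl⟩
    have hx' : ∑ i, x i ^ 2 ≤ 1 := hx
    rw [Fin.sum_univ_succ] at hx'
    show ∑ i, Fin.tail x i ^ 2 ≤ 1 ^ 2
    simp only [Fin.tail]
    nlinarith [sq_nonneg (x 0)]
  · intro hy
    refine ⟨Fin.cons 0 y, ?_, Fin.tail_cons _ _⟩
    show ∑ i, (Fin.cons 0 y : V3) i ^ 2 ≤ 1
    rw [Fin.sum_univ_succ]
    simpa using hy

lemma coordsEquiv_ball3 (b : OrthonormalBasis (Fin 3) ℝ E3) :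
    (fun x => WithLp.ofLp (coords b x)) '' ball3 = ball3 := by
  have hn : ∀ x : V3, ∑ i, (WithLp.ofLp (coords b x)) i ^ 2 = ∑ i, x i ^ 2 := fun x => by
    rw [← norm_coords_sq b x, EuclideanSpace.norm_sq_eq]; simp [sq_abs]
  ext y
  constructor
  · rintro ⟨x, hx, rfl⟩
    show ∑ i : Fin 3, (WithLp.ofLp (coords b x)) i ^ 2 ≤ (1:ℝ)
    rw [hn]; exact hx
  · intro hy
    refine ⟨(coordsEquiv b).symm (WithLp.toLp 2 y), ?_, ?_⟩
    · show ∑ i : Fin 3, (coordsEquiv b).symm (WithLp.toLp 2 y) i ^ 2 ≤ (1:ℝ)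
      rw [← hn, ← coordsEquiv_apply, LinearEquiv.apply_symm_apply]
      exact hy
    · show WithLp.ofLp (coords b _) = y
      rw [← coordsEquiv_apply, LinearEquiv.apply_symm_apply]

lemma pA_ball3 (u : V3) : pA ball3 u = Real.pi * len u := by
  rcases eq_or_ne u 0 with rfl | hu
  · simp [pA_zero, len]
  have hl := len_pos hu
  set v : E3 := WithLp.toLp 2 ((len u)⁻¹ • u) with hv
  have hv1 : ‖v‖ = 1 := by
    rw [← sq_eq_sq₀ (norm_nonneg _) zero_le_one, one_pow, EuclideanSpace.norm_sq_eq, hv]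
    simp only [Real.norm_eq_abs, sq_abs, Pi.smul_apply, smul_eq_mul, mul_pow, ← Finset.mul_sum,
      ← dot_self_eq, ← len_sq]
    field_simp
  obtain ⟨b, hb⟩ := exists_basis_first hv1
  set R : V3 ≃ₗ[ℝ] V3 := (coordsEquiv b).trans (WithLp.linearEquiv 2 ℝ V3) with hR
  have hR' : (R : V3 → V3) = fun x => WithLp.ofLp (coords b x) := rfl
  have hvol : |LinearMap.det (R : V3 →ₗ[ℝ] V3)| = 1 := by
    have h := vol_image R ball3
    rw [hR', coordsEquiv_ball3] at h
    have hp := vol_pos ball3_body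
    nlinarith
  have he : R e0 = (len u)⁻¹ • u := by
    have h : b.repr v = WithLp.toLp 2 (e0 : V3) := by
      rw [← hb, OrthonormalBasis.repr_self]
      ext i; simp [e0, Pi.single_apply]
    have h2 : coordsEquiv b e0 = v := by
      show b.repr.symm (WithLp.toLp 2 (e0 : V3)) = v
      rw [← h, LinearIsometryEquiv.symm_apply_apply]
    show WithLp.ofLp (coordsEquiv b e0) = _
    rw [h2, hv]
  have h1 : pA ball3 ((len u)⁻¹ • u) = Real.pi := by
    have h := pA_pullback R ball3_body.2.1 e0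
    rw [hvol, one_mul, hR', coordsEquiv_ball3] at h
    rw [← he, hR', h, pA_e0 ball3_body.1 ball3_body.2.1, shadow_ball3, volume_disc zero_le_one]
    ring
  calc pA ball3 u = pA ball3 (len u • ((len u)⁻¹ • u)) := by rw [smul_inv_smul₀ hl.ne']
    _ = len u * Real.pi := by rw [pA_smul ball3_body hl.le, h1]
    _ = _ := by ring

lemma dot_le_len (u x : V3) (hx : x ∈ ball3) : u ⬝ᵥ x ≤ len u := by
  refine (le_abs_self _).trans (Real.abs_le_sqrt ?_)
  calc (u ⬝ᵥ x) ^ 2 ≤ (u ⬝ᵥ u) * (x ⬝ᵥ x) := by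
        rw [dot_self_eq, dot_self_eq]
        exact Finset.sum_mul_sq_le_sq_mul_sq _ _ _
    _ ≤ (u ⬝ᵥ u) * 1 := mul_le_mul_of_nonneg_left (mem_ball3.1 hx) (dot_self_nonneg' u)
    _ = _ := mul_one _

lemma projSet_eq_ball {K : Set V3} {ρ : ℝ} (hρ : 0 < ρ) (h : ∀ u, pA K u = ρ * len u) :
    projSet K = ρ • ball3 := by
  ext x
  rw [mem_smul_set_iff_inv_smul_mem₀ hρ.ne']
  constructor
  · intro hx
    have h1 := hx x
    rw [h, ← len_sq] at h1
    have h0 : 0 ≤ len x := Real.sqrt_nonneg _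
    have h2 : len x ≤ ρ := by
      rcases h0.eq_or_lt with e | e
      · linarith
      · exact le_of_mul_le_mul_right h1 e
    rw [mem_ball3, dotProduct_smul, smul_dotProduct, ← len_sq, smul_eq_mul, smul_eq_mul,
      ← mul_assoc]
    calc ρ⁻¹ * ρ⁻¹ * (len x * len x) = (ρ⁻¹ * len x) ^ 2 := by ring
      _ ≤ 1 := by
        refine pow_le_one₀ (by positivity) ?_
        rw [inv_mul_le_iff₀ hρ, mul_one]; exact h2
  · intro hx u
    have h1 := dot_le_len u _ hx
    rw [dotProduct_smul, smul_eq_mul, inv_mul_le_iff₀ hρ] at h1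
    exact h1.trans (h u).ge

lemma projSet_upper {K : Set V3} (hK : Body K) {u : V3} {b : ℝ}
    (hb : ∀ x ∈ projSet K, u ⬝ᵥ x ≤ b) : pA K u ≤ b := by
  refine le_of_forall_theta 2 fun θ hθ => ?_
  obtain ⟨n, s, hs⟩ := exists_approx hK hθ
  obtain ⟨z, hz, he⟩ := exists_dot_eq_supp s u
  obtain ⟨x, hx, rfl⟩ := hs.hi hz
  have h1 := hb x hx
  rw [dotProduct_smul, smul_eq_mul] at he
  have := hs.le_supp u
  rw [← he] at this
  calc pA K u ≤ θ * (θ * (u ⬝ᵥ x)) := this
    _ ≤ θ * (θ * b) := by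
        have : 0 ≤ θ := by linarith
        gcongr
    _ = θ ^ 2 * b := by ring

/-- The transpose of a linear map. -/
def trMap (A : V3 →ₗ[ℝ] V3) : V3 →ₗ[ℝ] V3 :=
  Matrix.toLin' (LinearMap.toMatrix' A).transpose

lemma trMap_dot (A : V3 →ₗ[ℝ] V3) (u x : V3) : u ⬝ᵥ A x = trMap A u ⬝ᵥ x := by
  conv_lhs => rw [show A x = (LinearMap.toMatrix' A).mulVec x by
    rw [← Matrix.toLin'_apply, Matrix.toLin'_toMatrix']]
  rw [Matrix.dotProduct_mulVec, trMap, Matrix.toLin'_apply, Matrix.mulVec_transpose]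

lemma trMap_det (A : V3 →ₗ[ℝ] V3) : LinearMap.det (trMap A) = LinearMap.det A := by
  rw [trMap, LinearMap.det_toLin', Matrix.det_transpose, LinearMap.det_toMatrix']

lemma trMap_inj (A : V3 ≃ₗ[ℝ] V3) : Function.Injective (trMap (A : V3 →ₗ[ℝ] V3)) := by
  intro u v h
  have key : ∀ y, u ⬝ᵥ y = v ⬝ᵥ y := fun y => by
    have := congrArg (· ⬝ᵥ A.symm y) h
    simp only [← trMap_dot, LinearEquiv.coe_coe, LinearEquiv.apply_symm_apply] at this
    exact this
  funext i
  simpa using key (Pi.single i 1)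

/-- The transpose of a linear equivalence. -/
def trEquiv (A : V3 ≃ₗ[ℝ] V3) : V3 ≃ₗ[ℝ] V3 :=
  LinearEquiv.ofInjectiveEndo (trMap (A : V3 →ₗ[ℝ] V3)) (trMap_inj A)

lemma trEquiv_apply (A : V3 ≃ₗ[ℝ] V3) (u : V3) :
    trEquiv A u = trMap (A : V3 →ₗ[ℝ] V3) u :=
  congrFun (LinearEquiv.coe_ofInjectiveEndo _ (trMap_inj A)) u

lemma trEquiv_dot (A : V3 ≃ₗ[ℝ] V3) (u x : V3) : u ⬝ᵥ A x = trEquiv A u ⬝ᵥ x := by
  rw [trEquiv_apply]
  exact trMap_dot _ u x

lemma trEquiv_det (A : V3 ≃ₗ[ℝ] V3) :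
    LinearMap.det (trEquiv A : V3 →ₗ[ℝ] V3) = LinearMap.det (A : V3 →ₗ[ℝ] V3) := by
  have : (trEquiv A : V3 →ₗ[ℝ] V3) = trMap (A : V3 →ₗ[ℝ] V3) := LinearMap.ext (trEquiv_apply A)
  rw [this, trMap_det]

/-- Equality forces an ellipsoid. -/
theorem eq_case {K : Set V3} (hK : Body K)
    (heq : volume.real (projSet K) ≤ pc * volume.real K ^ 2) :
    ∃ (M : V3 ≃ₗ[ℝ] V3) (c : V3), K = (fun x => M x + c) '' ball3 := by
  obtain ⟨T, hT⟩ := eq_projSet_ellipsoid hK heq vol_ball3
  set N := trEquiv T.symm with hN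
  set d := |LinearMap.det (N : V3 →ₗ[ℝ] V3)| with hd
  have hd0 : 0 < d := abs_det_pos N
  have hP : projSet K = T.symm '' ball3 := by rw [← hT, image_image]; simp
  have hvP : volume.real (projSet K) = d * (4 * Real.pi / 3) := by
    rw [hP, vol_map, vol_ball3, hd, hN, trEquiv_det]
  have hpA : ∀ u, pA K u = len (N u) := by
    intro u
    refine le_antisymm (projSet_upper hK fun x hx => ?_) ?_
    · rw [hP] at hx
      obtain ⟨y, hy, rfl⟩ := hx
      rw [trEquiv_dot]
      exact dot_le_len _ _ hy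
    · rcases eq_or_ne (N u) 0 with h | h
      · rw [h]; simpa [len] using pA_nonneg hK u
      have hl := len_pos h
      have hy : (len (N u))⁻¹ • N u ∈ ball3 := by
        rw [mem_ball3, dotProduct_smul, smul_dotProduct, ← len_sq, smul_eq_mul, smul_eq_mul]
        exact le_of_eq (by field_simp)
      have h1 : u ⬝ᵥ T.symm ((len (N u))⁻¹ • N u) ≤ pA K u :=
        (show T.symm ((len (N u))⁻¹ • N u) ∈ projSet K by
          rw [hP]; exact mem_image_of_mem _ hy) u
      rw [trEquiv_dot, ← hN, dotProduct_smul, ← len_sq, smul_eq_mul] at h1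
      refine le_trans (le_of_eq ?_) h1
      field_simp
  set K' := N '' K with hK'
  have hKB := body_image N hK
  have hpA' : ∀ v, pA K' v = d * len v := fun v => by
    have h := pA_pullback N hK.2.1 (N.symm v)
    rw [LinearEquiv.apply_symm_apply] at h
    rw [hK', h, hpA, LinearEquiv.apply_symm_apply]
  have hP' : projSet K' = d • ball3 := projSet_eq_ball hd0 hpA'
  set V := volume.real K with hV
  have Vp : 0 < V := vol_pos hK
  have hV' : volume.real K' = d * V := vol_map K N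
  have hVp' : 0 < volume.real K' := by rw [hV']; positivity
  have heq' : volume.real (projSet K') ≤ pc * volume.real K' ^ 2 := by
    rw [hP', vol_smul' _ hd0.le, vol_ball3, hV']
    rw [hvP] at heq
    nlinarith [mul_le_mul_of_nonneg_left heq (sq_nonneg d)]
  set l := 1 / (pc * volume.real K') with hl
  have hl0 : 0 < l := div_pos one_pos (mul_pos pc_pos hVp')
  obtain ⟨-, hLV, hL8⟩ := eq_fixed hKB heq' l hl0 (one_div_mul_cancel (mul_pos pc_pos hVp').ne')
  have hQ' : projSet (projSet K') = (d ^ 2 * Real.pi) • ball3 := by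
    rw [hP']
    refine projSet_eq_ball (by positivity) fun u => ?_
    rw [pA_smul_set ball3_body.1 ball3_body.2.1 hd0.le, pA_ball3]
    ring
  rw [hQ', smul_smul] at hLV hL8
  set σ := l * (d ^ 2 * Real.pi) with hσ
  have hσ0 : 0 < σ := by positivity
  have hvS : volume.real (σ⁻¹ • K') = volume.real ball3 := by
    rw [vol_smul' _ (by positivity), ← hLV, vol_smul' _ hσ0.le]
    field_simp
  have hsum : volume.real (σ⁻¹ • K' + ball3) ≤ 8 * volume.real (σ⁻¹ • K') := by
    have e : σ⁻¹ • K' + ball3 = σ⁻¹ • (K' + σ • ball3) := by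
      rw [smul_add, smul_smul, inv_mul_cancel₀ hσ0.ne', one_smul]
    rw [e, vol_smul' _ (by positivity), vol_smul' _ (by positivity)]
    calc σ⁻¹ ^ 3 * volume.real (K' + σ • ball3) ≤ σ⁻¹ ^ 3 * (8 * volume.real K') := by gcongr
      _ = _ := by ring
  obtain ⟨c, hc⟩ := ball_of_bm_eq (smul_body hKB (inv_pos.2 hσ0)) hvS hsum
  refine ⟨(LinearEquiv.smulOfNeZero ℝ V3 σ hσ0.ne').trans N.symm, N.symm (σ • c), ?_⟩
  have h1 : K' = (fun x => σ • x + σ • c) '' ball3 := by
    rw [← smul_inv_smul₀ hσ0.ne' K', hc, ← image_smul, image_image]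
    simp only [smul_add]
  have h2 : K = N.symm '' K' := by rw [hK', image_image]; simp
  conv_lhs => rw [h2, h1]
  rw [image_image]
  simp

/-- Ellipsoids attain equality. -/
theorem ellipsoid_attains (M : V3 ≃ₗ[ℝ] V3) :
    volume.real (projSet (M '' ball3)) = pc * volume.real (M '' ball3) ^ 2 := by
  set d := |LinearMap.det (M : V3 →ₗ[ℝ] V3)| with hd
  have hd0 : 0 < d := abs_det_pos M
  set N := trEquiv M with hN
  have hB := body_image M ball3_body
  have e : projSet (M '' ball3) = N.symm '' ((d * Real.pi) • ball3) := by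
    rw [← projSet_eq_ball (K := d.sqrt • ball3) (by positivity) fun u => by
      rw [pA_smul_set ball3_body.1 ball3_body.2.1 (Real.sqrt_nonneg _), Real.sq_sqrt hd0.le,
        pA_ball3, mul_assoc]]
    ext x
    rw [LinearEquiv.image_symm_eq_preimage, mem_preimage]
    refine ⟨fun hx u => ?_, fun hx u => ?_⟩
    · have h := hx (M u)
      rw [pA_pullback M ball3_body.2.1, dotProduct_comm, trEquiv_dot, dotProduct_comm] at h
      rw [pA_smul_set ball3_body.1 ball3_body.2.1 (Real.sqrt_nonneg _), Real.sq_sqrt hd0.le]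
      exact h
    · have h := hx (M.symm u)
      rw [pA_smul_set ball3_body.1 ball3_body.2.1 (Real.sqrt_nonneg _), Real.sq_sqrt hd0.le,
        dotProduct_comm, ← trEquiv_dot, LinearEquiv.apply_symm_apply, dotProduct_comm,
        hd, ← pA_pullback M ball3_body.2.1, LinearEquiv.apply_symm_apply] at h
      exact h
  rw [e, vol_map, vol_map, vol_smul' _ (by positivity), vol_ball3, ← hd]
  have hN' : |LinearMap.det (N.symm : V3 →ₗ[ℝ] V3)| = d⁻¹ := by
    refine eq_inv_of_mul_eq_one_left ?_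
    rw [hd, ← trEquiv_det M, ← hN, ← abs_mul, LinearEquiv.det_symm_mul_det, abs_one]
  rw [hN', pc]
  field_simp

end

end Vale.Agent.P237
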