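import Vale.Agent.P237.Main

/-!
Monotonicity, homogeneity and covariance of `pA`, and the projection body in coordinates.
-/

open MeasureTheory Set Pointwise Filter Topology

namespace Vale.Agent.P237

noncomputable section

open Zonoid

/-- The projection body in coordinates. -/
def projSet (K : Set V3) : Set V3 := {x | ∀ u, u ⬝ᵥ x ≤ pA K u}

lemma vol_smul' (A : Set V3) {c : ℝ} (hc : 0 ≤ c) :
    volume.real (c • A) = c ^ 3 * volume.real A := by
  rw [measureReal_def, Measure.addHaar_smul_of_nonneg volume hc, ENNReal.toReal_mul,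
    ENNReal.toReal_ofReal (by positivity), ← measureReal_def]
  simp

lemma smul_body {K : Set V3} (hK : Body K) {c : ℝ} (hc : 0 < c) : Body (c • K) := by
  have h := body_image (LinearEquiv.smulOfNeZero ℝ V3 c hc.ne') hK
  have e : (LinearEquiv.smulOfNeZero ℝ V3 c hc.ne') '' K = c • K := by
    rw [← image_smul]; rfl
  rwa [e] at h

lemma pA_pullback (T : V3 ≃ₗ[ℝ] V3) {S : Set V3} (hc : IsCompact S) (u : V3) :
    pA (T '' S) (T u) = |LinearMap.det (T : V3 →ₗ[ℝ] V3)| * pA S u :=
  pA_image (T : V3 →ₗ[ℝ] V3) hc u fun A _ => vol_image T A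

lemma exists_pA_shadow {u : V3} (hu : u ≠ 0) :
    ∃ (T : V3 ≃ₗ[ℝ] V3) (c : ℝ), 0 < c ∧ ∀ S : Set V3, Convex ℝ S → IsCompact S →
      pA S u = c * volume.real (shadow (T '' S)) := by
  obtain ⟨T, hT⟩ := exists_equiv_e0 hu
  refine ⟨T.symm, |LinearMap.det (T : V3 →ₗ[ℝ] V3)|, abs_det_pos T, fun S hS hc => ?_⟩
  have hS' : Convex ℝ (T.symm '' S) := hS.linear_image T.symm.toLinearMap
  have hc' : IsCompact (T.symm '' S) := hc.image T.symm.toContinuousLinearEquiv.continuous
  rw [← pA_e0 hS' hc', ← pA_pullback T hc', hT, image_image]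
  simp

theorem pA_mono {K K' : Set V3} (hK : Convex ℝ K) (hKc : IsCompact K) (hK' : Convex ℝ K')
    (hK'c : IsCompact K') (h : K ⊆ K') (u : V3) : pA K u ≤ pA K' u := by
  rcases eq_or_ne u 0 with rfl | hu
  · simp [pA_zero]
  obtain ⟨T, c, hc, hT⟩ := exists_pA_shadow hu
  rw [hT K hK hKc, hT K' hK' hK'c]
  exact mul_le_mul_of_nonneg_left (measureReal_mono (image_mono (image_mono h))
    (isCompact_shadow (hK'c.image T.toContinuousLinearEquiv.continuous)).measure_lt_top.ne) hc.le

theorem pA_smul_set {K : Set V3} (hK : Convex ℝ K) (hKc : IsCompact K) {c : ℝ} (hc : 0 ≤ c)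
    (u : V3) : pA (c • K) u = c ^ 2 * pA K u := by
  rcases eq_or_ne u 0 with rfl | hu
  · simp [pA_zero]
  obtain ⟨T, d, -, hT⟩ := exists_pA_shadow hu
  have e : shadow (T '' (c • K)) = c • shadow (T '' K) := by
    rw [shadow, shadow, ← image_smul, ← image_smul]
    simp only [image_image, map_smul]
    rfl
  rw [hT _ (hK.smul c) (hKc.smul c), hT K hK hKc, e, measureReal_def,
    Measure.addHaar_smul_of_nonneg volume hc, ENNReal.toReal_mul,
    ENNReal.toReal_ofReal (by positivity), ← measureReal_def]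
  simp; ring

lemma pA_neg (K : Set V3) (u : V3) : pA K (-u) = pA K u := by
  have : seg (-u) = seg u := by
    ext x
    constructor <;> rintro ⟨t, ht, rfl⟩ <;>
      exact ⟨-t, ⟨by linarith [ht.2], by linarith [ht.1]⟩, by simp⟩
  rw [pA, pA, this]

lemma projSet_neg_mem {K : Set V3} {x : V3} (hx : x ∈ projSet K) : -x ∈ projSet K := fun u => by
  have := hx (-u)
  rw [pA_neg, neg_dotProduct] at this
  rwa [dotProduct_neg]

theorem projSet_body {K : Set V3} (hK : Body K) : Body (projSet K) := by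
  have hcl : IsClosed (projSet K) := by
    rw [projSet, ofPred_forall]
    exact isClosed_iInter fun u => isClosed_le (by unfold dotProduct; fun_prop) continuous_const
  refine ⟨?_, ?_, ?_⟩
  · intro x hx y hy a b ha hb hab u
    rw [dotProduct_add, dotProduct_smul, dotProduct_smul, smul_eq_mul, smul_eq_mul]
    have h1 := mul_le_mul_of_nonneg_left (hx u) ha
    have h2 := mul_le_mul_of_nonneg_left (hy u) hb
    have e : pA K u = a * pA K u + b * pA K u := by rw [← add_mul, hab, one_mul]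
    linarith
  · refine (isCompact_Icc (a := (fun i => -pA K (-(Pi.single i 1)) : V3))
      (b := fun i => pA K (Pi.single i 1))).of_isClosed_subset hcl fun x hx => ?_
    refine ⟨fun i => ?_, fun i => ?_⟩
    · have := hx (-(Pi.single i 1))
      simp [neg_dotProduct, single_dotProduct] at this
      simp; linarith
    · simpa [single_dotProduct] using hx (Pi.single i 1)
  · obtain ⟨c, hc, hlow⟩ := pA_lower hK
    refine mem_interior.2 ⟨Metric.ball 0 (c / 3), fun x hx u => ?_, Metric.isOpen_ball,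
      Metric.mem_ball_self (by positivity)⟩
    rw [mem_ball_zero_iff] at hx
    refine le_trans ?_ (hlow u)
    calc u ⬝ᵥ x ≤ ∑ _i : Fin 3, ‖u‖ * ‖x‖ := Finset.sum_le_sum fun i _ =>
          (le_abs_self _).trans (by
            rw [abs_mul]
            exact mul_le_mul (norm_le_pi_norm u i) (norm_le_pi_norm x i) (abs_nonneg _)
              (norm_nonneg _))
      _ ≤ c * ‖u‖ := by simp; nlinarith [norm_nonneg u, norm_nonneg x]

/-- A zonotope approximation of a projection body. -/
structure Approx (K : Set V3) (θ : ℝ) {ι : Type} [Fintype ι] (s : ι → V3) : Prop where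
  body : Body (zon s)
  lo : projSet K ⊆ θ • zon s
  hi : zon s ⊆ θ • projSet K
  supp_le : ∀ u, supp s u ≤ θ * pA K u
  le_supp : ∀ u, pA K u ≤ θ * supp s u

theorem exists_approx {K : Set V3} (hK : Body K) {θ : ℝ} (hθ : 1 < θ) :
    ∃ (n : ℕ) (s : Fin n → V3), Approx K θ s := by
  obtain ⟨n, s, hs⟩ := exists_zonotope_approx hK (show 0 < θ - 1 by linarith)
  simp only [add_sub_cancel] at hs
  have h0 : 0 < θ := by linarith
  refine ⟨n, s, zon_body s (zon_pos_of_supp s fun u hu =>
    (pos_iff_pos_of_mul_pos (lt_of_lt_of_le (pA_pos hK hu) (hs u).2)).1 h0), ?_, ?_,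
    fun u => (hs u).1, fun u => (hs u).2⟩
  · intro x hx
    rw [mem_smul_set_iff_inv_smul_mem₀ h0.ne']
    refine subset_zon_of_dot_le s fun u => ?_
    rw [dotProduct_smul, smul_eq_mul, inv_mul_le_iff₀ h0]
    exact (hx u).trans (hs u).2
  · intro x hx
    rw [mem_smul_set_iff_inv_smul_mem₀ h0.ne']
    intro u
    rw [dotProduct_smul, smul_eq_mul, inv_mul_le_iff₀ h0]
    exact (dot_le_supp s u hx).trans (hs u).1

theorem Approx.vol_le {K : Set V3} (hK : Body K) {θ : ℝ} (hθ : 0 ≤ θ) {ι : Type} [Fintype ι]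
    {s : ι → V3} (h : Approx K θ s) :
    volume.real (zon s) ≤ θ ^ 3 * volume.real (projSet K) ∧
      volume.real (projSet K) ≤ θ ^ 3 * volume.real (zon s) := by
  have hP := (projSet_body hK).2.1
  exact ⟨(measureReal_mono h.hi (hP.smul θ).measure_lt_top.ne).trans_eq (vol_smul' _ hθ),
    (measureReal_mono h.lo (h.body.2.1.smul θ).measure_lt_top.ne).trans_eq (vol_smul' _ hθ)⟩

theorem Approx.pA_le {K : Set V3} (hK : Body K) {θ : ℝ} (hθ : 0 ≤ θ) {ι : Type} [Fintype ι]
    {s : ι → V3} (h : Approx K θ s) (u : V3) :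
    supp (piGen s) u ≤ θ ^ 2 * pA (projSet K) u ∧
      pA (projSet K) u ≤ θ ^ 2 * supp (piGen s) u := by
  obtain ⟨hc, hk, -⟩ := projSet_body hK
  rw [← pA_zon, ← pA_smul_set hc hk hθ, ← pA_smul_set h.body.1 h.body.2.1 hθ]
  exact ⟨pA_mono h.body.1 h.body.2.1 (hc.smul θ) (hk.smul θ) h.hi u,
    pA_mono hc hk (h.body.1.smul θ) (h.body.2.1.smul θ) h.lo u⟩

lemma le_of_forall_theta {a b : ℝ} (n : ℕ) (h : ∀ θ : ℝ, 1 < θ → a ≤ θ ^ n * b) : a ≤ b := by
  have hlim : Tendsto (fun θ : ℝ => θ ^ n * b) (𝓝[>] 1) (𝓝 b) := by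
    have : Continuous fun θ : ℝ => θ ^ n * b := by fun_prop
    simpa using (this.tendsto 1).mono_left (nhdsWithin_le_nhds (s := Ioi (1:ℝ)))
  exact ge_of_tendsto hlim (eventually_nhdsWithin_of_forall fun θ hθ => h θ hθ)

end

end Vale.Agent.P237
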