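import Vale.Agent.P237.Contact
import Vale.Agent.P237.Mixed
import Vale.Agent.P237.Equality.Basic
import Vale.Agent.P237.Equality.Cum

/-!
Equality in Brunn-Minkowski against the Euclidean ball.
-/

open MeasureTheory Set Pointwise Filter
open scoped RealInnerProductSpace

namespace Vale.Agent.P237

noncomputable section

/-- The Euclidean unit ball. -/
def ball3 : Set V3 := {x | ∑ i, x i ^ 2 ≤ 1}

lemma ball3_eq : ball3 = WithLp.toLp 2 ⁻¹' Metric.closedBall (0 : E3) 1 := by
  ext y
  rw [mem_preimage, mem_closedBall_zero_iff, ← sq_le_one_iff₀ (norm_nonneg _),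
    EuclideanSpace.norm_sq_eq]
  simp [ball3, sq_abs]

lemma ball3_body : Body ball3 := by
  have e : ball3 = WithLp.ofLp '' Metric.closedBall (0 : E3) 1 := by
    rw [ball3_eq]
    ext y
    exact ⟨fun h => ⟨_, h, rfl⟩, fun ⟨z, hz, e⟩ => by rw [← e]; simpa using hz⟩
  rw [e]
  refine ⟨(convex_closedBall _ _).linear_image (WithLp.linearEquiv 2 ℝ V3).toLinearMap,
    (isCompact_closedBall _ _).image (PiLp.continuous_ofLp 2 _), ?_⟩
  rw [show WithLp.ofLp '' Metric.closedBall (0 : E3) 1
      = (PiLp.homeomorph 2 fun _ : Fin 3 => ℝ) '' Metric.closedBall 0 1 from rfl,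
    ← Homeomorph.image_interior]
  exact ⟨0, Metric.ball_subset_interior_closedBall (Metric.mem_ball_self one_pos), rfl⟩

open Cum Zonoid

lemma fat_ball3 : Fat ball3 := ⟨ball3_body.1, ball3_body.2.1, ⟨0, ball3_body.2.2⟩⟩

lemma rng_ball3 : Rng ball3 (-1) 1 := by
  refine ⟨fun x hx => ?_, ⟨-Pi.single 0 1, ?_, by simp⟩, ⟨Pi.single 0 1, ?_, by simp⟩⟩
  · have h : x 0 ^ 2 ≤ 1 :=
      (Finset.single_le_sum (f := fun i => x i ^ 2) (fun i _ => sq_nonneg _) (Finset.mem_univ 0)).trans hx
    exact abs_le.1 ((sq_le_one_iff_abs_le_one _).1 h)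
  all_goals simp [ball3, Fin.sum_univ_succ]

lemma integral_ball3_first : ∫ x in ball3, x 0 = 0 := by
  have hp : MeasurePreserving (fun x : V3 => -x) volume volume :=
    Measure.measurePreserving_neg volume
  have hpre : (fun x : V3 => -x) ⁻¹' ball3 = ball3 := by ext x; simp [ball3]
  have h := hp.setIntegral_preimage_emb (MeasurableEquiv.neg V3).measurableEmbedding
    (fun x => x 0) ball3
  rw [hpre] at h
  simp only [Pi.neg_apply, integral_neg] at h
  linarith

/-- A convex body has no closed proper subset of the same volume. -/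
lemma eq_of_subset_vol {X Y : Set V3} (hX : IsCompact X) (hY : Fat Y) (h : X ⊆ Y)
    (hv : volume.real X = volume.real Y) : X = Y := by
  have hsd : volume (Y \ X) = 0 := by
    rw [measure_sdiff h hX.measurableSet.nullMeasurableSet hX.measure_lt_top.ne,
      (ENNReal.toReal_eq_toReal_iff' hX.measure_lt_top.ne hY.2.1.measure_lt_top.ne).1 hv, tsub_self]
  have hint : interior Y \ X = ∅ :=
    (isOpen_interior.sdiff hX.isClosed).eq_empty_of_measure_zero
      (measure_mono_null (sdiff_subset_sdiff_left interior_subset) hsd)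
  refine h.antisymm fun y hy => ?_
  have hcl : y ∈ closure (interior Y) := by
    rw [hY.1.closure_interior_eq_closure_of_nonempty_interior hY.2.2]; exact subset_closure hy
  exact closure_minimal (sdiff_eq_empty.1 hint) hX.isClosed hcl

/-- The support bound in one direction. -/
lemma dot_le_centroid {K : Set V3} (hK : Body K) (hV : volume.real K = volume.real ball3)
    (h : volume.real (K + ball3) ≤ 8 * volume.real K) (b : OrthonormalBasis (Fin 3) ℝ E3) :
    ∀ y ∈ K, ∑ i, WithLp.ofLp (b 0) i * (y i - (∫ x in K, x i) / volume.real K) ≤ 1 := by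
  intro y hy
  set L : V3 ≃ₗ[ℝ] V3 := (coordsEquiv b).trans (WithLp.linearEquiv 2 ℝ V3) with hL
  have hLapp : ∀ x, L x = WithLp.ofLp (coords b x) := fun x => rfl
  have hdot : ∀ x, ∑ i, WithLp.ofLp (b 0) i * L x i = x 0 := fun x => by
    rw [← repr_coords b x 0, PiLp.inner_apply]
    refine Finset.sum_congr rfl fun i _ => ?_
    simp [hLapp, mul_comm]
  have hLmp : MeasurePreserving L volume volume :=
    (PiLp.volume_preserving_ofLp (Fin 3)).comp (measurePreserving_coords b)
  have hemb : MeasurableEmbedding L :=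
    L.toContinuousLinearEquiv.toHomeomorph.measurableEmbedding
  have hball : L.symm '' ball3 = ball3 := by
    rw [LinearEquiv.image_symm_eq_preimage]
    ext x
    show ∑ i, L x i ^ 2 ≤ 1 ↔ ∑ i, x i ^ 2 ≤ 1
    rw [← norm_coords_sq b x, EuclideanSpace.norm_sq_eq]
    simp [hLapp, sq_abs]
  set X := L.symm '' K with hXdef
  have hpre : X = L ⁻¹' K := LinearEquiv.image_symm_eq_preimage L K
  have hXB : Body X := body_image L.symm hK
  have hvol : ∀ S : Set V3, volume.real (L.symm '' S) = volume.real S := fun S => by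
    rw [LinearEquiv.image_symm_eq_preimage, measureReal_def, measureReal_def,
      hLmp.measure_preimage_emb hemb]
  have hsum : X + ball3 = L.symm '' (K + ball3) := by
    conv_lhs => rw [← hball]
    exact (image_add L.symm).symm
  obtain ⟨m, hm, hint⟩ := slice_translate ⟨hXB.1, hXB.2.1, ⟨0, hXB.2.2⟩⟩ fat_ball3
    (by rw [hvol, hV]) (by rw [hsum, hvol, hvol]; exact h) rng_ball3
  rw [integral_ball3_first, zero_add] at hint
  have hi : ∫ x in X, x 0 = ∑ i, WithLp.ofLp (b 0) i * ∫ z in K, z i := by
    rw [hpre, ← setIntegral_congr_fun (g := fun x => x 0)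
      (f := fun x => ∑ i, WithLp.ofLp (b 0) i * L x i)
      (hemb.measurable hK.2.1.measurableSet) fun x _ => hdot x,
      hLmp.setIntegral_preimage_emb hemb (fun z => ∑ i, WithLp.ofLp (b 0) i * z i) K,
      integral_finsetSum]
    · simp only [integral_const_mul]
    · intro i _
      exact (continuous_const.mul (continuous_apply i)).continuousOn.integrableOn_compact hK.2.1
  have hy' := hm _ (mem_image_of_mem L.symm hy)
  rw [← hdot (L.symm y), LinearEquiv.apply_symm_apply] at hy'
  have hm' : ∑ i, WithLp.ofLp (b 0) i * ((∫ x in K, x i) / volume.real K) = m := by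
    simp only [← mul_div_assoc, ← Finset.sum_div]
    rw [← hi, hint, hV, mul_div_cancel_right₀ _ (vol_pos ball3_body).ne']
  simp only [mul_sub, Finset.sum_sub_distrib, hm']
  linarith

/-- A body with the volume of the unit ball which adds to it like a homothet is a translate of it. -/
theorem ball_of_bm_eq {K : Set V3} (hK : Body K)
    (hV : volume.real K = volume.real ball3)
    (h : volume.real (K + ball3) ≤ 8 * volume.real K) :
    ∃ c : V3, K = (fun x => x + c) '' ball3 := by
  set g : V3 := fun i => (∫ x in K, x i) / volume.real K with hg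
  refine ⟨g, ?_⟩
  have hsub : (fun x => x + -g) '' K ⊆ ball3 := by
    rintro _ ⟨y, hy, rfl⟩
    rw [ball3_eq, mem_preimage, mem_closedBall_zero_iff]
    set d : E3 := WithLp.toLp 2 (y + -g) with hd
    rcases eq_or_ne d 0 with h0 | h0
    · simp [h0]
    have hn : 0 < ‖d‖ := norm_pos_iff.2 h0
    obtain ⟨b, hb⟩ := exists_basis_first (u := ‖d‖⁻¹ • d) (by simp [norm_smul, hn.ne'])
    have := dot_le_centroid hK hV h b y hy
    rw [hb] at this
    have e : ∑ i, WithLp.ofLp (‖d‖⁻¹ • d) i * (y i - g i) = ‖d‖ := by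
      have e2 : ‖d‖ ^ 2 = ∑ i, (y i - g i) ^ 2 := by
        rw [EuclideanSpace.norm_sq_eq]; simp [hd, sq_abs, sub_eq_add_neg]
      calc ∑ i, WithLp.ofLp (‖d‖⁻¹ • d) i * (y i - g i)
          = ∑ i, ‖d‖⁻¹ * (y i - g i) ^ 2 :=
            Finset.sum_congr rfl fun i _ => by simp [hd]; ring
        _ = ‖d‖ := by rw [← Finset.mul_sum, ← e2]; field_simp
    linarith
  have he := eq_of_subset_vol (hK.2.1.image (by fun_prop)) fat_ball3 hsub (by
    rw [image_add_right, measureReal_def, measure_preimage_add_right, ← measureReal_def, hV])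
  rw [← he, image_image]
  simp

end

end Vale.Agent.P237
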