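import Vale.Agent.P237.Contact
import Vale.Agent.P237.Profile

/-!
The contact estimate with its equality case.
-/

namespace Vale.Agent.P237

open MeasureTheory Set Metric Filter
open scoped RealInnerProductSpace Pointwise


/-- The slice estimate with equality only at the volume of the unit ball. -/
theorem exists_contact_slice_eq {K : Set E3} (hJ : InJohnPosition K) :
    ∃ b : OrthonormalBasis (Fin 3) ℝ E3, (∀ x ∈ K, |⟪b 0, x⟫| ≤ 1) ∧
      ((∫ t, Real.sqrt (sliceArea K b t)) ^ 2 ≤ 3 * Real.pi ^ 2 / 16 * volume.real K →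
        volume.real K = 4 * Real.pi / 3) := by
  obtain ⟨m, c, u, hc0, hcsum, hu1, huK, hdec⟩ := hJ.contacts
  choose b hb using fun i => exists_basis_first (hu1 i)
  have hbK : ∀ i, ∀ x ∈ K, |⟪b i 0, x⟫| ≤ 1 := fun i => by rw [hb]; exact huK i
  set V := volume.real K with hV
  set R := (3 * V / (4 * Real.pi)) ^ (1 / 3 : ℝ) with hRdef
  have hV0 : 0 ≤ 3 * V / (4 * Real.pi) := by positivity
  have hR : 0 ≤ R := Real.rpow_nonneg hV0 _
  have hR3 : R ^ 3 = 3 * V / (4 * Real.pi) := by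
    rw [hRdef, ← Real.rpow_natCast, ← Real.rpow_mul hV0]
    norm_num
  have hR2 : R ^ 2 = (3 * V / (4 * Real.pi)) ^ (2 / 3 : ℝ) := by
    rw [hRdef, ← Real.rpow_natCast, ← Real.rpow_mul hV0]
    norm_num
  have hmom := moment_ball_le hJ.compact hR (by rw [volume_ball_three hR, hR3, ← hV]; field_simp)
  rw [moment_ball_three hR] at hmom
  have hint : ∀ i, IntegrableOn (fun z => c i * ⟪u i, z⟫ ^ 2) K := fun i =>
    (by fun_prop : Continuous fun z : E3 => c i * ⟪u i, z⟫ ^ 2).continuousOn.integrableOn_compact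
      hJ.compact
  have hnorm : ∀ z : E3, ‖z‖ ^ 2 = ∑ i, c i * ⟪u i, z⟫ ^ 2 := fun z => by
    have h : ⟪∑ i, (c i * ⟪u i, z⟫) • u i, z⟫ = ‖z‖ ^ 2 := by
      rw [hdec z, real_inner_self_eq_norm_sq]
    rw [← h]
    simp only [sum_inner, real_inner_smul_left]
    exact Finset.sum_congr rfl fun i _ => by ring
  simp only [hnorm] at hmom
  rw [integral_finsetSum _ fun i _ => hint i] at hmom
  simp only [integral_const_mul] at hmom
  obtain ⟨i, -, hi, hci⟩ : ∃ i ∈ Finset.univ,
      c i * (4 * Real.pi * R ^ 5 / 15) ≤ c i * ∫ z in K, ⟪u i, z⟫ ^ 2 ∧ 0 < c i := by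
    by_contra hne
    push Not at hne
    have hlt : ∑ i, c i * ∫ z in K, ⟪u i, z⟫ ^ 2 < ∑ i, c i * (4 * Real.pi * R ^ 5 / 15) := by
      refine Finset.sum_lt_sum (fun i hi => ?_) ?_
      · by_contra h
        push Not at h
        have := hne i hi h.le
        have h0 : c i = 0 := le_antisymm this (hc0 i)
        simp [h0] at h
      · obtain ⟨i, hi, hci⟩ := Finset.exists_lt_of_sum_lt (s := Finset.univ) (f := fun _ => (0:ℝ))
          (g := c) (by simp [hcsum])
        refine ⟨i, hi, ?_⟩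
        by_contra h
        push Not at h
        linarith [hne i hi h]
    rw [← Finset.sum_mul, hcsum] at hlt
    linarith
  have hi' := le_of_mul_le_mul_left hi hci
  refine ⟨b i, hbK i, fun heq => ?_⟩
  obtain ⟨h1, h2, h3, hvol, hT, hG⟩ := profile_data hJ (hbK i)
  rw [← hb i, hT] at hi'
  set M := ∫ t in (0:ℝ)..1, profile K (b i) t ^ 2 with hM
  have hMR : 3 / 2 * M = 3 * V / (4 * Real.pi) := by rw [hV, hvol]; field_simp; ring
  rw [hG, mul_pow, mul_pow, Real.sq_sqrt Real.pi_nonneg, hV, hvol] at heq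
  have hmain := profile_lemma_eq _ h1 h2 h3 ?_ ?_
  · rw [hV, hvol, hM, hmain]; ring
  · rw [← hM, hMR, ← hR2]
    have e : R ^ 5 = R ^ 2 * (3 / 2 * M) := by rw [hMR, ← hR3]; ring
    rw [e] at hi'
    refine le_of_mul_le_mul_left ?_ (show 0 < 2 * Real.pi by positivity)
    linarith
  · refine le_of_mul_le_mul_left ?_ (show 0 < 4 * Real.pi by positivity)
    linarith

/-- A contact direction which can only be extremal for the ball. -/
theorem exists_contact_eq {X : Set V3} (hX : Body X) (hs : ∀ x ∈ X, -x ∈ X) :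
    ∃ T : V3 ≃ₗ[ℝ] V3,
      (∀ x : V3, ∑ i, x i ^ 2 ≤ 1 → x ∈ T '' X) ∧ (∀ x ∈ T '' X, x 0 ≤ 1) ∧
        (sliceG (T '' X) ^ 2 ≤ 3 * Real.pi ^ 2 / 16 * volume.real (T '' X) →
          volume.real (T '' X) = 4 * Real.pi / 3) := by
  obtain ⟨A, hJ⟩ := exists_johnPosition hX hs
  obtain ⟨b, hb, hG⟩ := exists_contact_slice_eq hJ
  refine ⟨A.symm.trans (coordsEquiv b).symm, ?_⟩
  have himg : (A.symm.trans (coordsEquiv b).symm) '' X = coords b ⁻¹' (A ⁻¹' X) := by
    rw [LinearEquiv.image_eq_preimage_symm]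
    rfl
  rw [himg]
  refine ⟨fun x hx => hJ.ball ?_, fun x hx => ?_, fun h => ?_⟩
  · rw [mem_closedBall_zero_iff, ← sq_le_one_iff₀ (norm_nonneg _), norm_coords_sq]
    exact hx
  · rw [← repr_coords b x 0]
    exact (le_abs_self _).trans (hb _ hx)
  · have e : volume.real (coords b ⁻¹' (A ⁻¹' X)) = volume.real (A ⁻¹' X) := by
      rw [measureReal_def, measureReal_def,
        (measurePreserving_coords b).measure_preimage_emb (measurableEmbedding_coords b)]
    rw [e] at h ⊢
    exact hG h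

end Vale.Agent.P237
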