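import Vale.Agent.P237.Equality.Basic
import Vale.Agent.P237.Equality.Contact
import Vale.Agent.P237.Equality.Ball

/-!
Equality in Petty's inequality: the fixed point equation and the shape of the projection body.
-/

open MeasureTheory Set Pointwise Filter Topology

namespace Vale.Agent.P237

noncomputable section

open Zonoid

lemma pc_pos : 0 < pc := by unfold pc; positivity

/-- Equality forces `Π²K` to add to `K` like a homothet and to have proportional projections. -/
theorem eq_fixed {K : Set V3} (hK : Body K)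
    (heq : volume.real (projSet K) ≤ pc * volume.real K ^ 2) :
    ∀ l : ℝ, 0 < l → l * (pc * volume.real K) = 1 →
      (∀ u, l ^ 2 * pA (projSet (projSet K)) u = pA K u) ∧
      volume.real (l • projSet (projSet K)) = volume.real K ∧
      volume.real (K + l • projSet (projSet K)) ≤ 8 * volume.real K := by
  intro l hl hlV
  set V := volume.real K with hV
  set P := projSet K with hP
  set Q := projSet P with hQ
  have hPB := projSet_body hK
  have hQB := projSet_body hPB
  have Vp : 0 < V := vol_pos hK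
  have hVP : volume.real P = pc * V ^ 2 := le_antisymm heq (petty_body hK)
  have hW : pc * volume.real P ^ 2 ≤ volume.real Q := petty_body hPB
  -- `V₁(K, Q)` bound
  set a := V ^ (1 / 3 : ℝ) with ha
  have ha0 : 0 < a := Real.rpow_pos_of_pos Vp _
  have ha3 : a ^ 3 = V := by
    rw [ha, ← Real.rpow_natCast, ← Real.rpow_mul Vp.le]; norm_num
  have hup : ∀ θ : ℝ, 1 < θ → volume.real (K + l • Q) ≤ (a + a * θ ^ 8) ^ 3 := by
    intro θ hθ
    have hθ0 : 0 ≤ θ := by linarith
    obtain ⟨n, s, hs⟩ := exists_approx hK hθ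
    set c := l * θ ^ 2 with hc
    have hc0 : 0 ≤ c := by positivity
    have hsub : l • Q ⊆ zon (c • piGen s) := by
      rintro _ ⟨x, hx, rfl⟩
      refine subset_zon_of_dot_le _ fun u => ?_
      rw [supp_smul _ hc0, dotProduct_smul, smul_eq_mul, hc, mul_assoc]
      exact mul_le_mul_of_nonneg_left ((hx u).trans (hs.pA_le hK hθ0 u).2) hl.le
    have hmix : mixed K (c • piGen s) ≤ c * (θ ^ 4 * volume.real P) := by
      have e : mixed K (c • piGen s) = c * mixed K (piGen s) := by
        simp only [mixed, Pi.smul_apply, pA_smul hK hc0, ← Finset.mul_sum]; ring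
      rw [e]
      refine mul_le_mul_of_nonneg_left ?_ hc0
      calc mixed K (piGen s) ≤ 2 / 3 * ∑ i, θ * supp s (piGen s i) := by
            unfold mixed; gcongr with i; exact hs.le_supp _
        _ = θ * volume.real (zon s) := by
            rw [← Finset.mul_sum, supp_symm (piGen s) s, vol_zon]; ring
        _ ≤ θ * (θ ^ 3 * volume.real P) := mul_le_mul_of_nonneg_left (hs.vol_le hK hθ0).1 hθ0
        _ = _ := by ring
    refine (measureReal_mono (add_subset_add_left hsub)
      (hK.2.1.add (zon_compact _)).measure_lt_top.ne).trans ?_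
    have hm0 : 0 ≤ mixed K (c • piGen s) :=
      mul_nonneg (by norm_num) (Finset.sum_nonneg fun i _ => pA_nonneg hK _)
    refine (vol_add_le hK _ ha0.le ha3).trans
      (pow_le_pow_left₀ (add_nonneg ha0.le (div_nonneg hm0 (sq_nonneg a))) ?_ 3)
    have key : c * (θ ^ 4 * volume.real P) = a * θ ^ 6 * a ^ 2 := by
      rw [hc, hVP]
      calc l * θ ^ 2 * (θ ^ 4 * (pc * V ^ 2)) = (l * (pc * V)) * θ ^ 6 * V := by ring
        _ = θ ^ 6 * a ^ 3 := by rw [hlV, ha3, one_mul]
        _ = _ := by ring
    have h6 : mixed K (c • piGen s) / a ^ 2 ≤ a * θ ^ 6 := by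
      rw [div_le_iff₀ (by positivity), ← key]; exact hmix
    have : a * θ ^ 6 ≤ a * θ ^ 8 :=
      mul_le_mul_of_nonneg_left (pow_le_pow_right₀ hθ.le (by norm_num)) ha0.le
    linarith
  have h8 : volume.real (K + l • Q) ≤ 8 * V := by
    have hlim : Tendsto (fun θ : ℝ => (a + a * θ ^ 8) ^ 3) (𝓝[>] 1) (𝓝 (8 * V)) := by
      have : Continuous fun θ : ℝ => (a + a * θ ^ 8) ^ 3 := by fun_prop
      have h := (this.tendsto 1).mono_left (nhdsWithin_le_nhds (s := Ioi (1:ℝ)))
      convert h using 2
      rw [← ha3]; ring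
    exact ge_of_tendsto hlim (eventually_nhdsWithin_of_forall fun θ hθ => hup θ hθ)
  have hLB : Body (l • Q) := smul_body hQB hl
  have hL : volume.real (l • Q) = l ^ 3 * volume.real Q := vol_smul' _ hl.le
  have hLV : V ≤ volume.real (l • Q) := by
    rw [hL]
    refine le_trans (le_of_eq ?_) (mul_le_mul_of_nonneg_left hW (by positivity))
    rw [hVP]
    calc V = (l * (pc * V)) ^ 3 * V := by rw [hlV]; ring
      _ = _ := by ring
  have keyu : ∀ u : V3, u ≠ 0 → pA K u = pA (l • Q) u ∧ volume.real (l • Q) = V := by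
    intro u hu
    have A0 := pA_pos hK hu
    have B0 := pA_pos hLB hu
    have hb := (bonnesen hK hLB hu).trans h8
    have hge : (Real.sqrt (pA K u) + Real.sqrt (pA (l • Q) u)) ^ 2 *
        (V / pA K u + V / pA (l • Q) u)
        ≤ (Real.sqrt (pA K u) + Real.sqrt (pA (l • Q) u)) ^ 2 *
        (V / pA K u + volume.real (l • Q) / pA (l • Q) u) := by gcongr
    have hk := near_key (ε := 0) (t := 0) le_rfl (by norm_num) Vp A0 B0
      ((hge.trans hb).trans (le_of_eq (by ring))) one_pos
    norm_num at hk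
    have eAB : pA K u = pA (l • Q) u := le_antisymm hk.1 hk.2
    refine ⟨eAB, le_antisymm ?_ hLV⟩
    rw [eAB] at hb
    have hsq := Real.sq_sqrt B0.le
    have e4 : (Real.sqrt (pA (l • Q) u) + Real.sqrt (pA (l • Q) u)) ^ 2 *
        (V / pA (l • Q) u + volume.real (l • Q) / pA (l • Q) u)
        = 4 * (V + volume.real (l • Q)) := by
      rw [← two_mul, mul_pow, hsq]; field_simp; ring
    rw [← hV, e4] at hb
    linarith
  refine ⟨fun u => ?_, (keyu e0 (by simp [e0])).2, h8⟩
  rcases eq_or_ne u 0 with rfl | hu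
  · simp [pA_zero]
  rw [(keyu u hu).1, pA_smul_set hQB.1 hQB.2.1 hl.le]

lemma integrable_sliceG {X : Set V3} (hX : IsCompact X) :
    Integrable fun t => Real.sqrt (slArea X t) := by
  obtain ⟨R, hR⟩ := hX.isBounded.exists_norm_le
  have hbox : ∀ t, {y : Fin 2 → ℝ | (Fin.cons t y : V3) ∈ X} ⊆
      Icc (fun _ => -|R|) (fun _ => |R|) := fun t y hy =>
    ⟨fun i => by
      have := (norm_le_pi_norm (Fin.cons t y : V3) i.succ).trans ((hR _ hy).trans (le_abs_self R))
      simp only [Fin.cons_succ, Real.norm_eq_abs] at this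
      exact (abs_le.1 this).1, fun i => by
      have := (norm_le_pi_norm (Fin.cons t y : V3) i.succ).trans ((hR _ hy).trans (le_abs_self R))
      simp only [Fin.cons_succ, Real.norm_eq_abs] at this
      exact (abs_le.1 this).2⟩
  set B := volume.real (Icc (fun _ => -|R|) (fun _ => |R|) : Set (Fin 2 → ℝ))
  have hb : ∀ t, slArea X t ≤ B := fun t => measureReal_mono (hbox t) isCompact_Icc.measure_lt_top.ne
  have hmeas : Measurable fun t => slArea X t :=
    (SliceAux.volume_eq_lintegral hX.measurableSet).2.2.ennreal_toReal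
  have hzero : ∀ t, t ∉ Icc (-|R|) |R| → slArea X t = 0 := by
    intro t ht
    have : {y : Fin 2 → ℝ | (Fin.cons t y : V3) ∈ X} = ∅ := eq_empty_of_forall_notMem fun y hy => ht (by
      have := (norm_le_pi_norm (Fin.cons t y : V3) 0).trans ((hR _ hy).trans (le_abs_self R))
      simp only [Fin.cons_zero, Real.norm_eq_abs] at this
      exact abs_le.1 this)
    simp [slArea, this]
  refine Integrable.mono' ((integrableOn_const (C := Real.sqrt B)
    isCompact_Icc.measure_lt_top.ne).integrable_indicator (measurableSet_Icc (a := -|R|) (b := |R|)))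
    hmeas.sqrt.aestronglyMeasurable (Eventually.of_forall fun t => ?_)
  rw [Real.norm_eq_abs, abs_of_nonneg (Real.sqrt_nonneg _)]
  by_cases ht : t ∈ Icc (-|R|) |R|
  · rw [indicator_of_mem ht]; exact Real.sqrt_le_sqrt (hb t)
  · rw [indicator_of_notMem ht, hzero t ht, Real.sqrt_zero]

lemma sliceG_smul (X : Set V3) {c : ℝ} (hc : 0 < c) : sliceG (c • X) = c ^ 2 * sliceG X := by
  have key : ∀ t, slArea (c • X) t = c ^ 2 * slArea X (t / c) := by
    intro t
    have e : {y : Fin 2 → ℝ | (Fin.cons t y : V3) ∈ c • X}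
        = c • {y : Fin 2 → ℝ | (Fin.cons (t / c) y : V3) ∈ X} := by
      ext y
      rw [mem_smul_set_iff_inv_smul_mem₀ hc.ne', mem_ofPred_eq, mem_ofPred_eq,
        mem_smul_set_iff_inv_smul_mem₀ hc.ne']
      have : c⁻¹ • (Fin.cons t y : V3) = Fin.cons (t / c) (c⁻¹ • y) := by
        funext i
        refine Fin.cases ?_ (fun j => ?_) i <;> simp [div_eq_inv_mul]
      rw [this]
    rw [slArea, e, measureReal_def, Measure.addHaar_smul_of_nonneg volume hc.le,
      ENNReal.toReal_mul, ENNReal.toReal_ofReal (by positivity), ← measureReal_def]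
    simp [slArea]
  simp only [sliceG, key, Real.sqrt_mul (sq_nonneg c), Real.sqrt_sq hc.le, integral_const_mul]
  rw [Measure.integral_comp_div (fun t => Real.sqrt (slArea X t)) c, abs_of_pos hc, smul_eq_mul]
  ring

lemma sliceG_mono {X Y : Set V3} (hX : IsCompact X) (hY : IsCompact Y) (h : X ⊆ Y) :
    sliceG X ≤ sliceG Y := by
  refine integral_mono (integrable_sliceG hX) (integrable_sliceG hY) fun t =>
    Real.sqrt_le_sqrt (measureReal_mono (fun y hy => h hy) ?_)
  obtain ⟨R, hR⟩ := hY.isBounded.exists_norm_le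
  refine (Bornology.IsBounded.measure_lt_top ?_).ne
  refine isBounded_iff_forall_norm_le.2 ⟨|R|, fun y hy => (pi_norm_le_iff_of_nonneg (abs_nonneg R)).2
    fun i => ?_⟩
  have := (norm_le_pi_norm (Fin.cons t y : V3) i.succ).trans ((hR _ hy).trans (le_abs_self R))
  simpa using this

lemma eq_ball3_of_volume {X : Set V3} (hX : Body X) (h : ball3 ⊆ X)
    (hv : volume.real X = volume.real ball3) : X = ball3 := by
  refine Subset.antisymm (fun x hx => ?_) h
  by_contra hxb
  have hopen : IsOpen (ball3 : Set V3)ᶜ := by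
    rw [isOpen_compl_iff]; exact isClosed_le (by fun_prop) continuous_const
  have hcl : x ∈ closure (interior X) := by
    rw [hX.1.closure_interior_eq_closure_of_nonempty_interior ⟨0, hX.2.2⟩]
    exact subset_closure hx
  obtain ⟨y, hy1, hy2⟩ := mem_closure_iff.1 hcl _ hopen hxb
  have hpos : 0 < volume ((ball3 : Set V3)ᶜ ∩ interior X) :=
    (hopen.inter isOpen_interior).measure_pos _ ⟨y, hy1, hy2⟩
  have hbm : MeasurableSet (ball3 : Set V3) := by
    rw [← MeasurableSet.compl_iff]; exact hopen.measurableSet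
  have hsd : volume (X \ ball3) = 0 := by
    have hfin : volume X ≠ ⊤ := hX.2.1.measure_lt_top.ne
    have hb : volume (ball3 : Set V3) ≠ ⊤ := ne_top_of_le_ne_top hfin (measure_mono h)
    rw [measure_sdiff h hbm.nullMeasurableSet hb]
    rw [(ENNReal.toReal_eq_toReal_iff' hfin hb).1 hv, tsub_self]
  have : volume ((ball3 : Set V3)ᶜ ∩ interior X) ≤ volume (X \ ball3) :=
    measure_mono fun z hz => ⟨interior_subset hz.2, hz.1⟩
  rw [hsd] at this
  exact absurd this (not_le.2 hpos)

/-- Equality makes the projection body an ellipsoid. -/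
theorem eq_projSet_ellipsoid {K : Set V3} (hK : Body K)
    (heq : volume.real (projSet K) ≤ pc * volume.real K ^ 2)
    (hball : volume.real ball3 = 4 * Real.pi / 3) :
    ∃ T : V3 ≃ₗ[ℝ] V3, T '' projSet K = ball3 := by
  set V := volume.real K with hV
  set P := projSet K with hP
  set Q := projSet P with hQ
  have hPB := projSet_body hK
  have Vp : 0 < V := vol_pos hK
  have hl : 0 < 1 / (pc * V) := div_pos one_pos (mul_pos pc_pos Vp)
  obtain ⟨hprop, -, -⟩ := eq_fixed hK heq _ hl (one_div_mul_cancel (mul_pos pc_pos Vp).ne')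
  have hVP : volume.real P = pc * V ^ 2 := le_antisymm heq (petty_body hK)
  obtain ⟨T, hin, hh, hG⟩ := exists_contact_eq hPB fun x hx => projSet_neg_mem hx
  refine ⟨T, eq_ball3_of_volume (body_image T hPB) hin ?_⟩
  rw [hball]
  refine hG ?_
  set w : V3 := fun j => T (Pi.single j 1) 0 with hw
  set d := |LinearMap.det (T : V3 →ₗ[ℝ] V3)| with hd
  have hd0 : 0 < d := abs_det_pos T
  have hTc : IsCompact (T '' P) := hPB.2.1.image T.toContinuousLinearEquiv.continuous
  have hsupp : pA K w ≤ 1 := by
    refine le_of_forall_theta 2 fun θ hθ => ?_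
    obtain ⟨n, s, hs⟩ := exists_approx hK hθ
    obtain ⟨z, hz, he⟩ := exists_dot_eq_supp s w
    obtain ⟨x, hx, rfl⟩ := hs.hi hz
    have h1 := hh (T x) (mem_image_of_mem T hx)
    have hwx : w ⬝ᵥ x = T x 0 := by
      conv_rhs => rw [pi_eq_sum_univ' x, map_sum]
      simp [dotProduct, hw, Finset.sum_apply, map_smul, mul_comm]
    rw [dotProduct_smul, smul_eq_mul, hwx] at he
    have := hs.le_supp w
    rw [← he] at this
    nlinarith
  have key : ∀ θ : ℝ, 1 < θ →
      4 * sliceG (T '' P) ^ 2 ≤ θ ^ 8 * (d * ((pc * V) ^ 2 * 1)) := by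
    intro θ hθ
    have hθ0 : 0 < θ := by linarith
    obtain ⟨n, s, hs⟩ := exists_approx hK hθ
    have him : T '' zon s = zon (fun i => T (s i)) := zon_map s (T : V3 →ₗ[ℝ] V3)
    have hsl := four_sliceG_le (fun i => T (s i))
      (by rw [← him, vol_map]; exact mul_pos hd0 (vol_pos hs.body))
    rw [← him, supp_piGen_piGen_map, ← hd, ← hw] at hsl
    have hsub : T '' P ⊆ θ • (T '' zon s) :=
      (image_mono hs.lo).trans_eq (image_smul_set T θ (zon s))
    have hTz : IsCompact (T '' zon s) := (zon_compact s).image T.toContinuousLinearEquiv.continuous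
    have hg : sliceG (T '' P) ≤ θ ^ 2 * sliceG (T '' zon s) :=
      (sliceG_mono hTc (hTz.smul θ) hsub).trans_eq (sliceG_smul _ hθ0)
    have hg0 : 0 ≤ sliceG (T '' P) := integral_nonneg fun t => Real.sqrt_nonneg _
    have hpi : supp (piGen (piGen s)) w ≤ θ ^ 4 * pA Q w := by
      have hsub2 : zon (piGen s) ⊆ θ ^ 2 • Q := fun x hx => by
        rw [mem_smul_set_iff_inv_smul_mem₀ (by positivity : θ ^ 2 ≠ 0)]
        intro u
        rw [dotProduct_smul, smul_eq_mul, inv_mul_le_iff₀ (by positivity)]
        exact (dot_le_supp _ u hx).trans (hs.pA_le hK hθ0.le u).1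
      have hQB := projSet_body hPB
      rw [← pA_zon]
      refine (pA_mono (zon_convex _) (zon_compact _) (hQB.1.smul _) (hQB.2.1.smul _) hsub2 w).trans
        (le_of_eq ?_)
      rw [pA_smul_set hQB.1 hQB.2.1 (by positivity)]
      ring
    have hQw : pA Q w ≤ (pc * V) ^ 2 * 1 := by
      have h1 := hprop w
      have h2 : pA Q w = (pc * V) ^ 2 * pA K w := by
        rw [← h1, ← hQ, ← mul_assoc, ← mul_pow, mul_one_div_cancel (mul_pos pc_pos Vp).ne', one_pow, one_mul]
      rw [h2]
      exact mul_le_mul_of_nonneg_left hsupp (sq_nonneg _)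
    calc 4 * sliceG (T '' P) ^ 2 ≤ 4 * (θ ^ 2 * sliceG (T '' zon s)) ^ 2 := by gcongr
      _ = θ ^ 4 * (4 * sliceG (T '' zon s) ^ 2) := by ring
      _ ≤ θ ^ 4 * (d * (θ ^ 4 * ((pc * V) ^ 2 * 1))) := by
          refine mul_le_mul_of_nonneg_left ?_ (by positivity)
          exact hsl.trans (mul_le_mul_of_nonneg_left
            (hpi.trans (mul_le_mul_of_nonneg_left hQw (by positivity))) hd0.le)
      _ = _ := by ring
  have hfin := le_of_forall_theta 8 key
  rw [vol_map, ← hd, hVP]
  have e : 4 * (3 * Real.pi ^ 2 / 16 * (d * (pc * V ^ 2))) = d * ((pc * V) ^ 2 * 1) := by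
    unfold pc; ring
  linarith

end

end Vale.Agent.P237
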